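import Vale.Agent.P048.Full.Defs
import Vale.Agent.P048.Theta

/-!
P048: a cycle with a chord inside one low layer has at most `m - 2` vertices.
-/

open scoped Classical

namespace Vale.Agent.P048.Full

universe u

/-- Run a cycle, given on an initial segment of `ℕ`, on all integers. -/
lemma isCyc_wrap {V : Type u} {G : SimpleGraph V} {f : ℕ → V} {ℓ : ℕ} (hℓ : 1 ≤ ℓ)
    (hf : IsP G f (ℓ - 1)) (hclose : G.Adj (f (ℓ - 1)) (f 0)) :
    IsCyc G (fun x : ℤ => f (x % (ℓ : ℤ)).toNat) ℓ := by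
  have hpos : (0 : ℤ) < ℓ := by omega
  have hb : ∀ x : ℤ, (x % (ℓ : ℤ)).toNat < ℓ ∧ ((x % (ℓ : ℤ)).toNat : ℤ) = x % (ℓ : ℤ) := by
    intro x
    have h1 := Int.emod_nonneg x (b := (ℓ : ℤ)) (by omega)
    have h2 := Int.emod_lt_of_pos x hpos
    omega
  refine ⟨fun i j => ⟨fun h => ?_, fun h => ?_⟩, fun i => ?_⟩
  · have e := hf.1 _ _ (by have := hb i; omega) (by have := hb j; omega) h
    have e' : i % (ℓ : ℤ) = j % (ℓ : ℤ) := by rw [← (hb i).2, ← (hb j).2, e]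
    exact Int.ModEq.dvd (Eq.symm e')
  · show f _ = f _
    rw [show i % (ℓ : ℤ) = j % (ℓ : ℤ) from (Int.modEq_iff_dvd.2 h).symm]
  · show G.Adj (f _) (f _)
    obtain ⟨h1, h2⟩ := hb i
    have hstep : (i + 1) % (ℓ : ℤ) = (((i % (ℓ : ℤ)).toNat : ℤ) + 1) % (ℓ : ℤ) := by
      rw [h2, Int.emod_add_emod]
    rw [hstep]
    set a := (i % (ℓ : ℤ)).toNat
    rcases Nat.lt_or_ge (a + 1) ℓ with h | h
    · rw [Int.emod_eq_of_lt (by omega) (by omega),
        show ((a : ℤ) + 1).toNat = a + 1 by omega]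
      exact hf.2 a (by omega)
    · rw [show (a : ℤ) + 1 = (ℓ : ℤ) by omega, Int.emod_self, show a = ℓ - 1 by omega]
      exact hclose

theorem chordCycle : ChordCycle.{u} := by
  intro V G X v R lev m i ℓ t f hno hL _ hiR him hf hclose ht htl hch hlay
  by_contra hlong
  have hpred : ∀ x ∈ X, 0 < lev x → lev x ≤ R + 1 →
      ∃ y, y ∈ X ∧ G.Adj x y ∧ lev y + 1 = lev x := hL.pred
  choose! par hpar using hpred
  let X' := X.filter fun x => lev x ≤ R + 1
  have hT : IsTree G X' v lev par := by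
    intro x hx
    obtain ⟨hxX, hxR⟩ := Finset.mem_filter.1 hx
    refine ⟨fun h => (hL.root x hxX).1 h, fun h => ?_⟩
    obtain ⟨h1, h2, h3⟩ := hpar x hxX h hxR
    exact ⟨Finset.mem_filter.2 ⟨h1, by omega⟩, h2, h3⟩
  have hmem : ∀ x : ℤ, f (x % (ℓ : ℤ)).toNat ∈ X ∧ lev (f (x % (ℓ : ℤ)).toNat) = i := by
    intro x
    have h1 := Int.emod_nonneg x (b := (ℓ : ℤ)) (by omega)
    have h2 := Int.emod_lt_of_pos x (show (0 : ℤ) < ℓ by omega)
    exact Finset.mem_filter.1 (hlay _ (by omega))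
  refine hno (hasCyc_of_layer_theta hT (isCyc_wrap (by omega) hf hclose) ht htl ?_
    (fun x => Finset.mem_filter.2 ⟨(hmem x).1, by rw [(hmem x).2]; exact hiR⟩)
    (fun x => (hmem x).2) (by omega) (by omega))
  show G.Adj (f _) (f _)
  rw [Int.zero_emod, Int.emod_eq_of_lt (by omega) (by omega)]
  simpa using hch

end Vale.Agent.P048.Full
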