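import Vale.Agent.P048.Full.Defs

/-!
P048, whole range, module C: Pósa rotation gives two units per `T` vertices.
-/

open scoped Classical

namespace Vale.Agent.P048.Full

universe u

variable {V : Type u} {G : SimpleGraph V} {L : Finset V} {T M : ℕ}

/-- Removing a set that holds the neighbourhood of an independent subset. -/
private lemma units_reduce (S I : Finset V) (hIL : I ⊆ L) (hIS : I ⊆ S) (hI : Indep G I)
    (hnb : ∀ u ∈ I, ∀ x ∈ L, G.Adj u x → x ∈ S) (hne : I.Nonempty)
    (hcard : 2 * S.card ≤ T * I.card)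
    (ih : ∀ L' : Finset V, L' ⊆ L → L'.card < L.card → 2 * L'.card ≤ T * alpha G L') :
    2 * L.card ≤ T * alpha G L := by
  obtain ⟨u, hu⟩ := hne
  have hlt : (L \ S).card < L.card := Finset.card_lt_card
    ⟨Finset.sdiff_subset, fun h => (Finset.mem_sdiff.1 (h (hIL hu))).2 (hIS hu)⟩
  have h1 := ih _ Finset.sdiff_subset hlt
  obtain ⟨s, hs1, hs2, hs3⟩ := exists_alpha G (L \ S)
  have hd : Disjoint s I := Finset.disjoint_left.2
    fun x hx hx' => (Finset.mem_sdiff.1 (hs1 hx)).2 (hIS hx')
  have h2 := le_alpha (G := G) (s := s ∪ I) (Y := L)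
    (Finset.union_subset (hs1.trans Finset.sdiff_subset) hIL)
    (hs2.union hI fun x hx y hy a => (Finset.mem_sdiff.1 (hs1 hx)).2
      (hnb y hy x (Finset.mem_sdiff.1 (hs1 hx)).1 a.symm))
  rw [Finset.card_union_of_disjoint hd, hs3] at h2
  have h3 : L.card ≤ (L \ S).card + S.card := by
    rw [← Finset.card_union_of_disjoint Finset.sdiff_disjoint]
    exact Finset.card_le_card (by intro x hx; by_cases h : x ∈ S <;> simp [hx, h])
  calc 2 * L.card ≤ T * alpha G (L \ S) + T * I.card := by omega
    _ ≤ T * alpha G L := by rw [← mul_add]; exact Nat.mul_le_mul_left _ h2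

/-- Reverse the first `t` vertices of a path. -/
private def rot (f : ℕ → V) (t : ℕ) : ℕ → V := fun i => if i < t then f (t - 1 - i) else f i

private lemma isP_rot {f : ℕ → V} {t : ℕ} (hf : IsP G f M) (ht : t ≤ M)
    (ha : G.Adj (f 0) (f t)) : IsP G (rot f t) M := by
  refine ⟨fun i j hi hj he => ?_, fun i hi => ?_⟩
  · simp only [rot] at he
    split_ifs at he <;>
    · have := hf.1 _ _ (by omega) (by omega) he
      omega
  · simp only [rot]
    rcases lt_trichotomy (i + 1) t with h | h | h
    · rw [if_pos (by omega), if_pos h]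
      have := (hf.2 (t - 1 - (i + 1)) (by omega)).symm
      rwa [show t - 1 - (i + 1) + 1 = t - 1 - i by omega] at this
    · rw [if_pos (by omega), if_neg (by omega)]
      subst h
      rw [show i + 1 - 1 - i = 0 by omega]
      exact ha
    · rw [if_neg (by omega), if_neg (by omega)]
      exact hf.2 i hi

private lemma rot_index {f : ℕ → V} {t p i : ℕ} (ht : t ≤ p + 1) (hi : i ≤ p) :
    ∃ j, j ≤ p ∧ rot f t i = f j := by
  unfold rot
  split_ifs
  · exact ⟨t - 1 - i, by omega, rfl⟩
  · exact ⟨i, hi, rfl⟩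

/-- The facts about the graph inside a layer used by the rotation. -/
private structure Setup (G : SimpleGraph V) (L : Finset V) (T M : ℕ) : Prop where
  six : 6 ≤ T
  chord : ∀ (ℓ t : ℕ) (f : ℕ → V), IsP G f (ℓ - 1) → G.Adj (f (ℓ - 1)) (f 0) → 2 ≤ t →
    t + 2 ≤ ℓ → G.Adj (f 0) (f t) → (∀ j, j < ℓ → f j ∈ L) → ℓ ≤ T
  big : ∀ u ∈ L, T < 2 * ((nb G u L).card + 1)
  longest : ∀ g : ℕ → V, IsP G g (M + 1) → ∃ i, i ≤ M + 1 ∧ g i ∉ L
  ih : ∀ L' : Finset V, L' ⊆ L → L'.card < L.card → 2 * L'.card ≤ T * alpha G L'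

/-- All neighbours of an end of a longest path are among its first `T` vertices. -/
private lemma Setup.end_nb (S : Setup G L T M) {g : ℕ → V} (hg : IsP G g M)
    (hgL : ∀ i, i ≤ M → g i ∈ L) {x : V} (hx : x ∈ L) (ha : G.Adj (g 0) x) :
    ∃ i, 1 ≤ i ∧ i ≤ min (T - 1) M ∧ g i = x := by
  have hall : ∀ y ∈ nb G (g 0) L, ∃ i, 1 ≤ i ∧ i ≤ M ∧ g i = y := by
    intro y hy
    rw [mem_nb] at hy
    by_contra hcon
    push Not at hcon
    have hne : ∀ i, i ≤ M → y ≠ g i := by
      intro i hi he
      rcases Nat.eq_zero_or_pos i with rfl | h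
      · exact hy.2.ne he.symm
      · exact hcon i h hi he.symm
    have hP := (isP_const y).cat hg hy.2.symm (fun _ _ j hj => hne j hj)
    obtain ⟨i, hi, hout⟩ := S.longest _ (show IsP G (cat (fun _ => y) 0 g) (M + 1) by
      rwa [show M + 1 = 0 + 1 + M by omega])
    rcases cat_cases (f := fun _ => y) (g := g) (r := 0) (s := M) (i := i) (by omega) with
      ⟨_, _, e, _⟩ | ⟨b, hb, e, _⟩ <;> rw [e] at hout
    · exact hout hy.1
    · exact hout (hgL b hb)
  let N := (Finset.Icc 1 M).filter fun i => G.Adj (g 0) (g i)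
  have hNsub : nb G (g 0) L ⊆ N.image g := by
    intro y hy
    obtain ⟨i, h1, h2, rfl⟩ := hall y hy
    exact Finset.mem_image.2 ⟨i, Finset.mem_filter.2 ⟨Finset.mem_Icc.2 ⟨h1, h2⟩,
      (mem_nb.1 hy).2⟩, rfl⟩
  have hN3 : 3 ≤ N.card := by
    have h1 := (Finset.card_le_card hNsub).trans Finset.card_image_le
    have h2 := S.big _ (hgL 0 (Nat.zero_le _))
    have h6 := S.six
    omega
  have hNne : N.Nonempty := Finset.card_pos.1 (by omega)
  obtain ⟨hs1, hsa⟩ := Finset.mem_filter.1 (N.max'_mem hNne)
  rw [Finset.mem_Icc] at hs1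
  set s := N.max' hNne with hs
  obtain ⟨t, htN, htne⟩ : ∃ t ∈ N, t ∉ ({1, s} : Finset ℕ) :=
    Finset.exists_mem_notMem_of_card_lt_card
      (lt_of_le_of_lt Finset.card_le_two (by omega))
  simp only [Finset.mem_insert, Finset.mem_singleton, not_or] at htne
  have hts : t ≤ s := N.le_max' t htN
  obtain ⟨ht1, hta⟩ := Finset.mem_filter.1 htN
  rw [Finset.mem_Icc] at ht1
  have hle := S.chord (s + 1) t g (by simpa using hg.mono hs1.2)
    (by simpa using hsa.symm) (by omega) (by omega) hta (fun j hj => hgL j (by omega))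
  obtain ⟨i, hi, rfl⟩ := Finset.mem_image.1 (hNsub (mem_nb.2 ⟨hx, ha⟩))
  have := N.le_max' i hi
  rw [Finset.mem_filter, Finset.mem_Icc] at hi
  exact ⟨i, hi.1.1, by omega, rfl⟩

/-- Either the bound holds, or the end of a longest path sees exactly the next `d` vertices and
the first `d` vertices are pairwise adjacent. -/
private lemma Setup.step (S : Setup G L T M) {g : ℕ → V} (hg : IsP G g M)
    (hgL : ∀ i, i ≤ M → g i ∈ L) :
    2 * L.card ≤ T * alpha G L ∨ ∃ d, d ≤ min (T - 1) M ∧ T < 2 * (d + 1) ∧
      (∀ i, i ≤ M → (G.Adj (g 0) (g i) ↔ 1 ≤ i ∧ i ≤ d)) ∧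
      ∀ i j, i < d → j < d → i ≠ j → G.Adj (g i) (g j) := by
  set p := min (T - 1) M with hp
  have hpM : p ≤ M := min_le_right _ _
  let N := (Finset.Icc 1 p).filter fun i => G.Adj (g 0) (g i)
  by_cases hcl : ∀ a ∈ N, ∀ b ∈ N, a ≠ b → G.Adj (g (a - 1)) (g (b - 1))
  · right
    have hmem : ∀ i, i ∈ N ↔ (1 ≤ i ∧ i ≤ p) ∧ G.Adj (g 0) (g i) := fun i => by
      simp only [N, Finset.mem_filter, Finset.mem_Icc]
    have hadj : ∀ i, i ≤ M → G.Adj (g 0) (g i) → i ∈ N := by
      intro i hi ha
      obtain ⟨j, h1, h2, h3⟩ := S.end_nb hg hgL (hgL i hi) ha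
      obtain rfl := hg.1 _ _ (h2.trans hpM) hi h3
      exact (hmem j).2 ⟨⟨h1, h2⟩, ha⟩
    have hNsub : nb G (g 0) L ⊆ N.image g := by
      intro y hy
      obtain ⟨i, h1, h2, rfl⟩ := S.end_nb hg hgL (mem_nb.1 hy).1 (mem_nb.1 hy).2
      exact Finset.mem_image.2 ⟨i, (hmem i).2 ⟨⟨h1, h2⟩, (mem_nb.1 hy).2⟩, rfl⟩
    have hd2 : T < 2 * (N.card + 1) := by
      have h1 := (Finset.card_le_card hNsub).trans Finset.card_image_le
      have h2 := S.big _ (hgL 0 (Nat.zero_le _))
      omega
    have hNne : N.Nonempty := Finset.card_pos.1 (by have := S.six; omega)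
    have h1N : 1 ∈ N := by
      have hM : 1 ≤ p := by
        obtain ⟨⟨h1, h2⟩, -⟩ := (hmem _).1 (N.max'_mem hNne)
        omega
      exact (hmem 1).2 ⟨⟨le_rfl, hM⟩, hg.2 0 (by omega)⟩
    have hdown : ∀ i, i + 1 ∈ N → 1 ≤ i → i ∈ N := by
      intro i hi h1
      have := hcl 1 h1N (i + 1) hi (by omega)
      simp only [Nat.sub_self, Nat.add_sub_cancel] at this
      exact hadj i (by have := (hmem _).1 hi; omega) this
    have hint : ∀ j i, i + j ∈ N → 1 ≤ i → i ∈ N := by
      intro j
      induction j with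
      | zero => intro i hi _; simpa using hi
      | succ j ihj => intro i hi h1; exact ihj i (hdown (i + j) hi (by omega)) h1
    set d := N.max' hNne with hd
    have hNd : N = Finset.Icc 1 d := by
      ext i
      rw [Finset.mem_Icc]
      refine ⟨fun h => ⟨((hmem i).1 h).1.1, N.le_max' i h⟩, fun h => ?_⟩
      refine hint (d - i) i ?_ h.1
      rw [Nat.add_sub_cancel' h.2]
      exact N.max'_mem hNne
    have hdp : d ≤ p := ((hmem _).1 (N.max'_mem hNne)).1.2
    rw [hNd, Nat.card_Icc] at hd2
    refine ⟨d, hdp, by omega, fun i hi => ?_, fun i j hi hj hij => ?_⟩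
    · constructor
      · intro h
        have h' := hadj i hi h
        rwa [hNd, Finset.mem_Icc] at h'
      · intro h
        have h' : i ∈ N := by rw [hNd, Finset.mem_Icc]; exact h
        exact ((hmem i).1 h').2
    · have := hcl (i + 1) (by rw [hNd, Finset.mem_Icc]; omega)
        (j + 1) (by rw [hNd, Finset.mem_Icc]; omega) (by omega)
      simpa using this
  · left
    push Not at hcl
    obtain ⟨a, ha, b, hb, hab, hnadj⟩ := hcl
    simp only [N, Finset.mem_filter, Finset.mem_Icc] at ha hb
    have hne : g (a - 1) ≠ g (b - 1) := fun h => by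
      have := hg.1 _ _ (by omega) (by omega) h
      omega
    have hend : ∀ c, (1 ≤ c ∧ c ≤ p) → G.Adj (g 0) (g c) → ∀ x ∈ L,
        G.Adj (g (c - 1)) x → x ∈ img g p := by
      intro c hc hca x hx hxa
      have hP := isP_rot hg (by omega) hca
      have hL : ∀ i, i ≤ M → rot g c i ∈ L := by
        intro i hi
        obtain ⟨j, hj, e⟩ := rot_index (f := g) (t := c) (p := M) (by omega) hi
        exact e ▸ hgL j hj
      have h0 : rot g c 0 = g (c - 1) := by
        simp only [rot]; rw [if_pos (by omega)]; simp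
      obtain ⟨i, -, hi, e⟩ := S.end_nb hP hL hx (by rwa [h0])
      obtain ⟨j, hj, e'⟩ := rot_index (f := g) (t := c) (p := p) (by omega) hi
      exact mem_img.2 ⟨j, hj, e'.symm.trans e⟩
    refine units_reduce (img g p) {g (a - 1), g (b - 1)} ?_ ?_ ?_ ?_
      ⟨_, Finset.mem_insert_self _ _⟩ ?_ S.ih
    · intro x hx
      simp only [Finset.mem_insert, Finset.mem_singleton] at hx
      rcases hx with rfl | rfl <;> exact hgL _ (by omega)
    · intro x hx
      simp only [Finset.mem_insert, Finset.mem_singleton] at hx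
      rcases hx with rfl | rfl
      · exact mem_img.2 ⟨a - 1, by omega, rfl⟩
      · exact mem_img.2 ⟨b - 1, by omega, rfl⟩
    · intro x hx y hy
      simp only [Finset.mem_insert, Finset.mem_singleton] at hx hy
      rcases hx with rfl | rfl <;> rcases hy with rfl | rfl
      · exact G.irrefl
      · exact hnadj
      · exact fun h => hnadj h.symm
      · exact G.irrefl
    · intro u hu
      simp only [Finset.mem_insert, Finset.mem_singleton] at hu
      rcases hu with rfl | rfl
      · exact hend a ha.1 ha.2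
      · exact hend b hb.1 hb.2
    · rw [Finset.card_pair hne]
      have := card_img_le g p
      have h6 := S.six
      omega

/-- The module `Units`. -/
theorem units : Units.{u} := by
  intro V G L T hT hcyc hcl
  induction L using Finset.strongInductionOn with
  | _ L ihL =>
    have ih : ∀ L' : Finset V, L' ⊆ L → L'.card < L.card → 2 * L'.card ≤ T * alpha G L' :=
      fun L' hs hlt => ihL L' ⟨hs, fun h => absurd (Finset.card_le_card h) (by omega)⟩
        (fun ℓ t f h1 h2 h3 h4 h5 h6 => hcyc ℓ t f h1 h2 h3 h4 h5 fun j hj => hs (h6 j hj))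
        (fun K hK => hcl K (hK.trans hs))
    by_cases hsmall : ∃ u ∈ L, 2 * ((nb G u L).card + 1) ≤ T
    · obtain ⟨u, hu, hd⟩ := hsmall
      refine units_reduce (insert u (nb G u L)) {u} (by simpa using hu) (by simp)
        (by simp [Indep]) (fun w hw x hx h => ?_) (Finset.singleton_nonempty _) ?_ ih
      · rw [Finset.mem_singleton] at hw
        subst hw
        exact Finset.mem_insert_of_mem (mem_nb.2 ⟨hx, h⟩)
      · have := Finset.card_insert_le u (nb G u L)
        simp only [Finset.card_singleton, mul_one]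
        omega
    push Not at hsmall
    rcases L.eq_empty_or_nonempty with rfl | ⟨v, hv⟩
    · simp
    let P : ℕ → Prop := fun M => ∃ g, IsP G g M ∧ ∀ i, i ≤ M → g i ∈ L
    let M := Nat.findGreatest P L.card
    obtain ⟨g, hg, hgL⟩ : P M :=
      Nat.findGreatest_spec (Nat.zero_le _) ⟨fun _ => v, isP_const v, fun _ _ => hv⟩
    have hlong : ∀ g : ℕ → V, IsP G g (M + 1) → ∃ i, i ≤ M + 1 ∧ g i ∉ L := by
      intro g' hg'
      by_contra hcon
      push Not at hcon
      have hcard := Finset.card_le_card (show img g' (M + 1) ⊆ L by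
        intro x hx
        obtain ⟨i, hi, rfl⟩ := mem_img.1 hx
        exact hcon i hi)
      rw [hg'.card_img] at hcard
      exact Nat.findGreatest_is_greatest (P := P) (lt_add_one M) (by omega) ⟨g', hg', hcon⟩
    have S : Setup G L T M := ⟨hT, hcyc, hsmall, hlong, ih⟩
    rcases S.step hg hgL with h | ⟨d, hdp, hdT, hnb, hW⟩
    · exact h
    have hdM : d ≤ M := hdp.trans (min_le_right _ _)
    by_contra hcon
    have key : ∀ j, j < d → T < 2 * d ∨ G.Adj (g j) (g d) := by
      intro j hj
      have ha : G.Adj (g 0) (g (j + 1)) := (hnb _ (by omega)).2 ⟨by omega, by omega⟩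
      have hP := isP_rot hg (show j + 1 ≤ M by omega) ha
      have hL : ∀ i, i ≤ M → rot g (j + 1) i ∈ L := by
        intro i hi
        obtain ⟨a, h1, e⟩ := rot_index (f := g) (t := j + 1) (p := M) (by omega) hi
        exact e ▸ hgL a h1
      rcases S.step hP hL with h | ⟨d', -, hd'T, hnb', -⟩
      · exact absurd h hcon
      by_cases hle : d ≤ d'
      · right
        have := (hnb' d hdM).2 ⟨by omega, hle⟩
        simp only [rot] at this
        rw [if_pos (by omega), if_neg (by omega)] at this
        simpa using this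
      · left
        omega
    have hinj : Set.InjOn g (Finset.range (d + 1)) := fun a ha b hb h => by
      simp only [Finset.coe_range, Set.mem_Iio] at ha hb
      exact hg.1 a b (by omega) (by omega) h
    by_cases hbig : T < 2 * d
    · have := hcl ((Finset.range d).image g) ?_ ?_
      · rw [Finset.card_image_of_injOn (hinj.mono (by simp)), Finset.card_range] at this
        omega
      · intro x hx
        obtain ⟨i, hi, rfl⟩ := Finset.mem_image.1 hx
        exact hgL i (by simp at hi; omega)
      · intro x hx y hy hxy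
        obtain ⟨i, hi, rfl⟩ := Finset.mem_image.1 hx
        obtain ⟨i', hi', rfl⟩ := Finset.mem_image.1 hy
        simp only [Finset.mem_range] at hi hi'
        exact hW i i' hi hi' (fun h => hxy (h ▸ rfl))
    · have := hcl ((Finset.range (d + 1)).image g) ?_ ?_
      · rw [Finset.card_image_of_injOn hinj, Finset.card_range] at this
        omega
      · intro x hx
        obtain ⟨i, hi, rfl⟩ := Finset.mem_image.1 hx
        exact hgL i (by simp at hi; omega)
      · intro x hx y hy hxy
        obtain ⟨i, hi, rfl⟩ := Finset.mem_image.1 hx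
        obtain ⟨i', hi', rfl⟩ := Finset.mem_image.1 hy
        simp only [Finset.mem_range] at hi hi'
        have hne : i ≠ i' := fun h => hxy (h ▸ rfl)
        rcases Nat.lt_or_ge i d with h1 | h1 <;> rcases Nat.lt_or_ge i' d with h2 | h2
        · exact hW i i' h1 h2 hne
        · rcases key i h1 with h | h
          · exact absurd h hbig
          · rwa [show i' = d by omega]
        · rcases key i' h2 with h | h
          · exact absurd h hbig
          · rw [show i = d by omega]; exact h.symm
        · omega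

end Vale.Agent.P048.Full
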