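import Vale.Agent.P048.Full.Engine
import Vale.Agent.P048.Full.ChordCycle
import Vale.Agent.P048.Full.Units

/-!
P048, whole range, odd `m`: without a clique on `(m + 1) / 2` vertices every layer has two
independent vertices per `m - 1`, the first layer a little more, so the alternate unions grow
by two at each step and exceed `k` after `(m - 1) / 2` steps.
-/

open scoped Classical

namespace Vale.Agent.P048.Full

universe u

/-- For odd `m` no minimal counterexample has clique number at most `(m - 1) / 2`. -/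
theorem engine_odd {V : Type u} {G : SimpleGraph V} {m k : ℕ} {X : Finset V} (hm : 9 ≤ m)
    (hodd : m % 2 = 1) (hkm : k + 1 ≤ m) (hC : Cx G m k X)
    (hclq : ∀ K, K ⊆ X → G.IsClique (K : Set V) → 2 * K.card < m) : False := by
  obtain ⟨v, hv⟩ := Finset.card_pos.1 (by have := hC.big; omega : 0 < X.card)
  obtain ⟨R, hR⟩ : ∃ R, R = (m - 1) / 2 := ⟨_, rfl⟩
  obtain ⟨lev, hL⟩ := exists_lay G hv R
  have hv0 : lev v = 0 := (hL.root v hv).2 rfl
  have hchord : ∀ i, 1 ≤ i → i ≤ R → ∀ (ℓ t : ℕ) (f : ℕ → V), IsP G f (ℓ - 1) →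
      G.Adj (f (ℓ - 1)) (f 0) → 2 ≤ t → t + 2 ≤ ℓ → G.Adj (f 0) (f t) →
      (∀ j, j < ℓ → f j ∈ layer X lev i) → ℓ ≤ m - 2 :=
    fun i hi hiR ℓ t f h1 h2 h3 h4 h5 h6 =>
      chordCycle V G X v R lev m i ℓ t f hC.noc hL hi (by omega) (by omega) h1 h2 h3 h4 h5 h6
  have hweak : ∀ i, 1 ≤ i → i ≤ R →
      2 * (layer X lev i).card ≤ (m - 1) * alpha G (layer X lev i) := by
    intro i hi hiR
    refine units V G _ (m - 1) (by omega) (fun ℓ t f h1 h2 h3 h4 h5 h6 =>
      (hchord i hi hiR ℓ t f h1 h2 h3 h4 h5 h6).trans (by omega)) fun K hK hcl => ?_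
    have := hclq K (hK.trans (Finset.filter_subset _ _)) hcl
    omega
  -- the first layer lies in the neighbourhood of the root
  have hfirst : 2 * (layer X lev 1).card ≤ (m - 2) * alpha G (layer X lev 1) := by
    refine units V G _ (m - 2) (by omega) (hchord 1 le_rfl (by omega)) fun K hK hcl => ?_
    have hKv : ∀ x ∈ K, x ∈ X ∧ G.Adj v x := by
      intro x hx
      obtain ⟨hxX, hl⟩ := Finset.mem_filter.1 (hK hx)
      obtain ⟨y, hy, hxy, hly⟩ := hL.pred x hxX (by omega) (by omega)
      obtain rfl := (hL.root y hy).1 (by omega)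
      exact ⟨hxX, hxy.symm⟩
    have hnot : v ∉ K := fun h => G.irrefl (hKv v h).2
    have h := hclq (insert v K) (Finset.insert_subset hv fun x hx => (hKv x hx).1) (by
      rw [Finset.coe_insert]
      exact hcl.insert fun x hx _ => (hKv x hx).2)
    rw [Finset.card_insert_of_notMem hnot] at h
    omega
  have hB : ∀ ρ, ρ + 1 ≤ R →
      2 * bsum X lev (ρ + 1) + alpha G (layer X lev 1) ≤ (m - 1) * ssum G X lev (ρ + 1) := by
    intro ρ
    induction ρ with
    | zero =>
      intro _
      simp only [bsum, ssum, Nat.zero_add]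
      have : (m - 2) * alpha G (layer X lev 1) + alpha G (layer X lev 1) =
          (m - 1) * alpha G (layer X lev 1) := by
        rw [← Nat.succ_mul]
        congr 1
        omega
      omega
    | succ ρ ih =>
      intro h
      have h1 := ih (by omega)
      have h2 := hweak (ρ + 1 + 1) (by omega) h
      simp only [bsum, ssum, Nat.mul_add] at h1 h2 ⊢
      omega
  have hα1 : 1 ≤ alpha G (layer X lev 1) := by
    obtain ⟨x, hx⟩ := Finset.card_pos.1 (by have := hC.deg hv; omega : 0 < (nb G v X).card)
    rw [mem_nb] at hx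
    refine one_le_alpha ⟨x, Finset.mem_filter.2 ⟨hx.1, ?_⟩⟩
    have h1 := hL.edge v hv x hx.1 hx.2 (by omega)
    have h2 : lev x ≠ 0 := fun h => hx.2.ne ((hL.root x hx.1).1 h).symm
    omega
  have hfarX : ∀ j, far X lev j ⊆ X := fun j => Finset.filter_subset _ _
  -- the alternate unions grow by two
  have hP : ∀ ρ, ρ ≤ R → 2 * ρ + 1 ≤ alpha G (pc X lev ρ) := by
    intro ρ
    induction ρ with
    | zero =>
      intro _
      exact one_le_alpha ⟨v, Finset.mem_filter.2 ⟨hv, by omega⟩⟩
    | succ ρ ih =>
      intro hρ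
      have h1 := ih (by omega)
      have h2 := hL.pc_sum ρ (by omega)
      have h3 := hB ρ hρ
      have h4 : alpha G (pc X lev ρ) + alpha G (far X lev (ρ + 1)) ≤ k := by
        refine (alpha_add (Finset.filter_subset _ _) (hfarX _) ?_ fun x hx y hy => ?_).trans hC.alp
        · rw [Finset.disjoint_left]
          intro x hx hx'
          simp only [far, Finset.mem_filter] at hx hx'
          omega
        · simp only [pc, far, Finset.mem_filter] at hx hy
          exact hL.anti (by omega) hx.1 hy.1 hx.2.1 hy.2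
      have h5 : (far X lev (ρ + 1)).card ≤ (m - 1) * alpha G (far X lev (ρ + 1)) :=
        hC.ih _ (by omega)
      have h6 := hL.card_split (ρ + 1)
      have h7 := Nat.mul_le_mul_left (m - 1) h4
      have h8 := hC.big
      rw [Nat.mul_add] at h7
      by_contra hcon
      have h9 := Nat.mul_le_mul_left (m - 1)
        (by omega : ssum G X lev (ρ + 1) ≤ 2 * alpha G (pc X lev ρ))
      rw [Nat.mul_left_comm] at h9
      omega
  have h1 := hP R le_rfl
  have h2 := (alpha_mono (G := G) (show pc X lev R ⊆ X from Finset.filter_subset _ _)).trans hC.alp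
  omega

end Vale.Agent.P048.Full
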