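import Vale.Agent.P048.Full.Defs

/-!
P048, whole range: the engine. The layers around any vertex grow so fast that their alternate
unions have more than `2 k` independent vertices within `(m - 1) / 2` steps.
-/

open scoped Classical

namespace Vale.Agent.P048.Full

universe u

variable {V : Type u} {G : SimpleGraph V}

/-- The ball of radius `j` around `v` inside `X`. -/
noncomputable def ball (G : SimpleGraph V) (X : Finset V) (v : V) : ℕ → Finset V
  | 0 => {v}
  | j + 1 => ball G X v j ∪ X.filter fun x => ∃ y ∈ ball G X v j, G.Adj x y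

lemma ball_subset {X : Finset V} {v : V} (hv : v ∈ X) : ∀ j, ball G X v j ⊆ X
  | 0 => by simp [ball, hv]
  | j + 1 => Finset.union_subset (ball_subset hv j) (Finset.filter_subset _ _)

lemma exists_lay (G : SimpleGraph V) {X : Finset V} {v : V} (hv : v ∈ X) (R : ℕ) :
    ∃ lev, Lay G X v R lev := by
  have hex : ∀ x, ∃ j, x ∈ ball G X v j ∨ R + 2 ≤ j := fun x => ⟨R + 2, Or.inr le_rfl⟩
  obtain ⟨lev, hlev⟩ : ∃ lev : V → ℕ, lev = fun x => Nat.find (hex x) := ⟨_, rfl⟩
  have hspec : ∀ x, lev x ≤ R + 1 → x ∈ ball G X v (lev x) := by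
    intro x hx
    subst hlev
    rcases Nat.find_spec (hex x) with h | h
    · exact h
    · simp only at hx; omega
  have hle : ∀ x j, x ∈ ball G X v j → lev x ≤ j := by
    intro x j h
    subst hlev
    exact Nat.find_le (Or.inl h)
  refine ⟨lev, hv, fun x _ => ⟨fun h => ?_, fun h => ?_⟩, fun x _ y hy ha hxR => ?_,
    fun x hx h0 hR => ?_⟩
  · have := hspec x (by omega)
    rw [h] at this
    simpa [ball] using this
  · have := hle x 0 (by simp [ball, h])
    omega
  · refine hle y (lev x + 1) (Finset.mem_union_right _ ?_)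
    exact Finset.mem_filter.2 ⟨hy, x, hspec x (by omega), ha.symm⟩
  · obtain ⟨j, hj⟩ : ∃ j, lev x = j + 1 := ⟨lev x - 1, by omega⟩
    have h := hspec x hR
    rw [hj, ball, Finset.mem_union] at h
    rcases h with h | h
    · have := hle x j h; omega
    obtain ⟨-, y, hy, hxy⟩ := Finset.mem_filter.1 h
    refine ⟨y, ball_subset hv j hy, hxy, ?_⟩
    have h1 := hle y j hy
    by_contra hne
    have h2 := hspec y (by omega)
    have := hle x (lev y + 1) (Finset.mem_union_right _ (Finset.mem_filter.2 ⟨hx, y, h2, hxy⟩))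
    omega

/-- The levels of the parity of `ρ` up to `ρ`. -/
noncomputable def pc (X : Finset V) (lev : V → ℕ) (ρ : ℕ) : Finset V :=
  X.filter fun x => lev x ≤ ρ ∧ lev x % 2 = ρ % 2

/-- The levels beyond `ρ`. -/
noncomputable def far (X : Finset V) (lev : V → ℕ) (ρ : ℕ) : Finset V :=
  X.filter fun x => ρ < lev x

/-- The summed independence numbers of the first `ρ` layers. -/
noncomputable def ssum (G : SimpleGraph V) (X : Finset V) (lev : V → ℕ) : ℕ → ℕ
  | 0 => 0
  | ρ + 1 => ssum G X lev ρ + alpha G (layer X lev (ρ + 1))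

/-- The first `ρ` layers together. -/
noncomputable def bsum (X : Finset V) (lev : V → ℕ) : ℕ → ℕ
  | 0 => 0
  | ρ + 1 => bsum X lev ρ + (layer X lev (ρ + 1)).card

variable {X : Finset V} {v : V} {R : ℕ} {lev : V → ℕ}

lemma Lay.anti (hL : Lay G X v R lev) {ρ : ℕ} (hρ : ρ ≤ R) {x y : V} (hx : x ∈ X) (hy : y ∈ X)
    (h1 : lev x ≤ ρ) (h2 : ρ + 1 < lev y) : ¬ G.Adj x y := fun ha => by
  have := hL.edge x hx y hy ha (h1.trans hρ)
  omega

lemma Lay.pc_sum (hL : Lay G X v R lev) : ∀ ρ, ρ + 1 ≤ R + 1 →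
    1 + ssum G X lev (ρ + 1) ≤ alpha G (pc X lev (ρ + 1)) + alpha G (pc X lev ρ) := by
  intro ρ
  induction ρ with
  | zero =>
    intro _
    show 1 + (0 + alpha G (layer X lev 1)) ≤ alpha G (pc X lev 1) + alpha G (pc X lev 0)
    have h0 : 1 ≤ alpha G (pc X lev 0) := one_le_alpha ⟨v, Finset.mem_filter.2 ⟨hL.mem, by
      have := (hL.root v hL.mem).2 rfl; omega⟩⟩
    have h1 : alpha G (layer X lev 1) ≤ alpha G (pc X lev 1) := alpha_mono fun x hx => by
      simp only [layer, pc, Finset.mem_filter] at hx ⊢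
      exact ⟨hx.1, by omega⟩
    omega
  | succ ρ ih =>
    intro hR
    have h := ih (by omega)
    have h2 : alpha G (pc X lev ρ) + alpha G (layer X lev (ρ + 2)) ≤
        alpha G (pc X lev (ρ + 2)) := by
      refine alpha_add (fun x hx => ?_) (fun x hx => ?_) ?_ fun x hx y hy => ?_
      · simp only [pc, Finset.mem_filter] at hx ⊢
        exact ⟨hx.1, by omega⟩
      · simp only [layer, pc, Finset.mem_filter] at hx ⊢
        exact ⟨hx.1, by omega⟩
      · rw [Finset.disjoint_left]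
        intro x hx hx'
        simp only [layer, pc, Finset.mem_filter] at hx hx'
        omega
      · simp only [layer, pc, Finset.mem_filter] at hx hy
        exact hL.anti (ρ := ρ) (by omega) hx.1 hy.1 hx.2.1 (by omega)
    rw [show ρ + 1 + 1 = ρ + 2 from rfl]
    rw [show ssum G X lev (ρ + 2) = ssum G X lev (ρ + 1) + alpha G (layer X lev (ρ + 2)) from rfl]
    omega

lemma Lay.card_split (hL : Lay G X v R lev) :
    ∀ ρ, X.card = 1 + bsum X lev ρ + (far X lev ρ).card := by
  intro ρ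
  induction ρ with
  | zero =>
    have h : far X lev 0 = X.erase v := by
      ext x
      simp only [far, Finset.mem_filter, Finset.mem_erase]
      constructor
      · rintro ⟨hx, hp⟩
        exact ⟨fun e => by have := (hL.root x hx).2 e; omega, hx⟩
      · rintro ⟨hne, hx⟩
        exact ⟨hx, Nat.pos_of_ne_zero fun h => hne ((hL.root x hx).1 h)⟩
    rw [h, Finset.card_erase_of_mem hL.mem, bsum]
    have := Finset.card_pos.2 ⟨v, hL.mem⟩
    omega
  | succ ρ ih =>
    have h := Finset.card_filter_add_card_filter_not (s := far X lev ρ) (fun x => lev x = ρ + 1)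
    have e1 : (far X lev ρ).filter (fun x => lev x = ρ + 1) = layer X lev (ρ + 1) := by
      ext x; simp only [far, layer, Finset.mem_filter]; exact ⟨fun h => ⟨h.1.1, h.2⟩, fun h => ⟨⟨h.1, by omega⟩, h.2⟩⟩
    have e2 : (far X lev ρ).filter (fun x => ¬ lev x = ρ + 1) = far X lev (ρ + 1) := by
      ext x; simp only [far, Finset.mem_filter]; exact ⟨fun h => ⟨h.1.1, by omega⟩, fun h => ⟨⟨h.1, by omega⟩, by omega⟩⟩
    rw [e1, e2] at h
    rw [bsum]
    omega

/-- The counting step. -/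
lemma Lay.count {m k ρ : ℕ} (hL : Lay G X v R lev) (hC : Cx G m k X) (hρ : 1 ≤ ρ) (hρR : ρ ≤ R) :
    (m - 1) * (1 + ssum G X lev ρ) ≤
        2 * bsum X lev ρ + (layer X lev (ρ + 1)).card ∧
      1 + ssum G X lev ρ + alpha G (far X lev ρ) ≤ 2 * k ∧
      (far X lev ρ).card ≤ (m - 1) * alpha G (far X lev ρ) := by
  have hfarX : ∀ j, far X lev j ⊆ X := fun j => Finset.filter_subset _ _
  have hlt : ∀ j, 1 ≤ j → alpha G (far X lev j) + 1 ≤ k := by
    intro j hj
    refine le_trans ?_ (alpha_nonnb hC.alp hL.mem)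
    refine Nat.add_le_add_right (alpha_mono fun x hx => ?_) 1
    simp only [far, Finset.mem_filter] at hx ⊢
    have hv0 := (hL.root v hL.mem).2 rfl
    refine ⟨hx.1, fun e => by rw [e] at hx; omega, fun ha => ?_⟩
    exact hL.anti (ρ := 0) (Nat.zero_le _) hL.mem hx.1 (by omega) (by
      have := hL.edge v hL.mem x hx.1 ha (by omega)
      omega) ha
  have hj1 : (far X lev ρ).card ≤ (m - 1) * alpha G (far X lev ρ) :=
    hC.ih _ (by have := hlt ρ hρ; omega)
  have hj2 : (far X lev (ρ + 1)).card ≤ (m - 1) * alpha G (far X lev (ρ + 1)) :=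
    hC.ih _ (by have := hlt (ρ + 1) (by omega); omega)
  have key : ∀ j, j ≤ R → alpha G (pc X lev j) + alpha G (far X lev (j + 1)) ≤ k := by
    intro j hj
    refine (alpha_add (Finset.filter_subset _ _) (hfarX _) ?_ fun x hx y hy => ?_).trans hC.alp
    · rw [Finset.disjoint_left]
      intro x hx hx'
      simp only [pc, far, Finset.mem_filter] at hx hx'
      omega
    · simp only [pc, far, Finset.mem_filter] at hx hy
      exact hL.anti hj hx.1 hy.1 hx.2.1 hy.2
  obtain ⟨ρ', rfl⟩ : ∃ ρ', ρ = ρ' + 1 := ⟨ρ - 1, by omega⟩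
  have h1 := hL.pc_sum ρ' (by omega)
  have h2 := key (ρ' + 1) hρR
  have h3 := key ρ' (by omega)
  have h4 := hL.card_split (ρ' + 1)
  have h5 := hL.card_split (ρ' + 1 + 1)
  have h6 : bsum X lev (ρ' + 1 + 1) = bsum X lev (ρ' + 1) + (layer X lev (ρ' + 1 + 1)).card := rfl
  refine ⟨?_, by omega, hj1⟩
  have h7 := Nat.mul_le_mul_left (m - 1)
    (show 1 + ssum G X lev (ρ' + 1) + alpha G (far X lev (ρ' + 1)) +
      alpha G (far X lev (ρ' + 1 + 1)) ≤ k + k by omega)
  simp only [Nat.mul_add] at h7 ⊢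
  have := hC.big
  omega

/-- The engine from the two layer lemmas. -/
theorem engine_of (hCC : ChordCycle.{u}) (hU : Units.{u}) : Engine.{u} := by
  intro V G m k X hm hk hkm hC hclq
  obtain ⟨v, hv⟩ := Finset.card_pos.1 (by have := hC.big; omega : 0 < X.card)
  obtain ⟨lev, hL⟩ := exists_lay G hv ((m - 1) / 2)
  obtain ⟨R, hR⟩ : ∃ R, R = (m - 1) / 2 := ⟨_, rfl⟩
  rw [← hR] at hL
  have hunit : ∀ i, 1 ≤ i → i ≤ R →
      2 * (layer X lev i).card ≤ (m - 2) * alpha G (layer X lev i) := by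
    intro i hi hiR
    refine hU V G _ (m - 2) (by omega) (fun ℓ t f h1 h2 h3 h4 h5 h6 =>
      hCC V G X v R lev m i ℓ t f hC.noc hL hi (by omega) (by omega) h1 h2 h3 h4 h5 h6) ?_
    intro K hK hcl
    have := hclq K (hK.trans (Finset.filter_subset _ _)) hcl
    omega
  have hB : ∀ ρ, ρ ≤ R → 2 * bsum X lev ρ ≤ (m - 2) * ssum G X lev ρ := by
    intro ρ
    induction ρ with
    | zero => intro _; simp [bsum]
    | succ ρ ih =>
      intro h
      have h1 := ih (by omega)
      have h2 := hunit (ρ + 1) (by omega) h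
      simp only [bsum, ssum, Nat.mul_add]
      omega
  have hgrow : ∀ ρ, ρ ≤ R → m - 1 + ssum G X lev ρ ≤ (layer X lev (ρ + 1)).card := by
    intro ρ hρ
    rcases Nat.eq_zero_or_pos ρ with rfl | hpos
    · refine le_trans (le_of_eq_of_le (by simp [ssum]) (hC.deg hv)) (Finset.card_le_card ?_)
      intro x hx
      rw [mem_nb] at hx
      simp only [layer, Finset.mem_filter]
      have h1 := hL.edge v hv x hx.1 hx.2 (by have := (hL.root v hv).2 rfl; omega)
      have h2 : lev x ≠ 0 := fun h => hx.2.ne ((hL.root x hx.1).1 h).symm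
      have h0 := (hL.root v hv).2 rfl
      exact ⟨hx.1, by omega⟩
    · obtain ⟨h1, -, -⟩ := hL.count hC hpos hρ
      have h2 := hB ρ hρ
      obtain ⟨T, rfl⟩ : ∃ T, m = T + 2 := ⟨m - 2, by omega⟩
      rw [show T + 2 - 1 = T + 1 by omega, show T + 2 - 2 = T by omega] at *
      simp only [Nat.add_mul, Nat.mul_add, Nat.one_mul, Nat.mul_one] at h1
      omega
  -- the slope of the partial sums
  have hstep : ∀ ρ, ρ + 1 ≤ R → ∀ c, (c * (m - 2) < 2 * (m - 1) + 2 * ssum G X lev ρ) →
      ssum G X lev ρ + (c + 1) ≤ ssum G X lev (ρ + 1) := by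
    intro ρ hρ c hc
    have h1 := hgrow ρ (by omega)
    have h2 := hunit (ρ + 1) (by omega) hρ
    have h3 : c * (m - 2) < (m - 2) * alpha G (layer X lev (ρ + 1)) := by omega
    rw [Nat.mul_comm] at h3
    have h4 := Nat.lt_of_mul_lt_mul_left h3
    simp only [ssum]
    omega
  obtain ⟨c1, hc1⟩ : ∃ c1, c1 = (m + 2) / 6 := ⟨_, rfl⟩
  obtain ⟨c2, hc2⟩ : ∃ c2, c2 = c1 + (m - 3 + c1) / 4 + 1 := ⟨_, rfl⟩
  obtain ⟨c3, hc3⟩ : ∃ c3, c3 = c2 + ((3 * m - 8) / 2 + c2) / 5 + 1 := ⟨_, rfl⟩
  have hS : ∀ ρ, ρ ≤ R → 3 * ρ ≤ ssum G X lev ρ ∧ 4 * ρ ≤ ssum G X lev ρ + c1 ∧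
      5 * ρ ≤ ssum G X lev ρ + c2 ∧ 6 * ρ ≤ ssum G X lev ρ + c3 := by
    intro ρ
    induction ρ with
    | zero => intro _; omega
    | succ ρ ih =>
      intro h
      obtain ⟨a, b, c, d⟩ := ih (by omega)
      have e3 := hstep ρ h 2 (by omega)
      have e4 := hstep ρ h 3
      have e5 := hstep ρ h 4
      have e6 := hstep ρ h 5
      omega
  obtain ⟨s1, s2, s3, s4⟩ := hS R le_rfl
  have hS5 : 2 * m ≤ ssum G X lev R + 5 := by omega
  obtain ⟨-, h2, h3⟩ := hL.count hC (by omega) le_rfl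
  have h4 := hgrow R le_rfl
  have h5 : (layer X lev (R + 1)).card ≤ (far X lev R).card := Finset.card_le_card fun x hx => by
    simp only [layer, far, Finset.mem_filter] at hx ⊢
    exact ⟨hx.1, by omega⟩
  have h6 : 2 < alpha G (far X lev R) := by
    by_contra hle
    have := Nat.mul_le_mul_left (m - 1) (not_lt.1 hle)
    omega
  omega

end Vale.Agent.P048.Full
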