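import Vale.Agent.P048.Full.NC.NoClique
import Vale.Agent.P048.Full.OddEngine
import Vale.Agent.P048.Full.Small.Main
import Vale.Agent.P048.Induction

/-!
P048: `R(C_m, K_n) = (m - 1) (n - 1) + 1` for all `m ≥ n ≥ 3` other than `(3, 3)`.
-/

open scoped Classical

namespace Vale.Agent.P048.Full

universe u

theorem card_le_all {V : Type u} {G : SimpleGraph V} (m : ℕ) (hm : 4 ≤ m) (hno : ¬ HasCyc G m) :
    ∀ (k : ℕ) (X : Finset V), k + 1 ≤ m → alpha G X ≤ k → X.card ≤ (m - 1) * k := by
  intro k
  induction k using Nat.strong_induction_on with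
  | _ k ih =>
  intro X hr hX
  by_contra hbig
  rcases Nat.eq_zero_or_pos k with hk | hk
  · subst hk
    rcases X.eq_empty_or_nonempty with h | h
    · simp [h] at hbig
    · have := one_le_alpha (G := G) h
      omega
  have hC : Cx G m k X :=
    ⟨hno, fun Y hY => ih _ hY Y (by omega) le_rfl, hX, by omega⟩
  rcases Nat.lt_or_ge m 8 with h7 | h8
  · exact Small.small hm (by omega) hk hr hC
  rcases Nat.mod_two_eq_zero_or_one m with hev | hodd
  · refine engine_of chordCycle units V G m k X (by omega) hk hr hC fun K hK hcl => ?_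
    by_contra hge
    exact NC.no_big_clique hC h8 hr hK hcl (by omega)
  · refine engine_odd (by omega) hodd hr hC fun K hK hcl => ?_
    by_contra hge
    exact NC.no_big_clique hC h8 hr hK hcl (by omega)

theorem ramsey_all {m n : ℕ} (hn : 3 ≤ n) (hm : n ≤ m) (hne : ¬ (m = 3 ∧ n = 3)) :
    IsLeast {N : ℕ | ∀ G : SimpleGraph (Fin N),
      (∃ v, ∃ p : G.Walk v v, p.IsCycle ∧ p.length = m) ∨ ∃ s, G.IsNIndepSet n s}
      ((m - 1) * (n - 1) + 1) := by
  have hm4 : 4 ≤ m := by omega
  refine ⟨fun G => ?_, fun N hN => ?_⟩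
  · by_cases h : alpha G Finset.univ ≤ n - 1
    · left
      refine HasCyc.to_walk (by omega) ?_
      by_contra hno
      have := card_le_all m hm4 hno (n - 1) Finset.univ (by omega) h
      rw [Finset.card_univ, Fintype.card_fin] at this
      omega
    · right
      obtain ⟨s, -, hs, hc⟩ := exists_indep (by omega : n ≤ alpha G Finset.univ)
      exact ⟨s, fun x hx y hy _ => hs x hx y hy, hc⟩
  · by_contra hlt
    obtain ⟨G, h1, h2⟩ := exists_free (m := m) (n := n) (N := N)
      (by omega) (by omega) (by omega)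
    exact (hN G).elim h1 h2

end Vale.Agent.P048.Full
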