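import Vale.Agent.P048.Clique

/-!
P048, the whole range: the statements of the modules of the layer argument.

Engine: in a breadth-first layer `i ≤ (m - 1) / 2` a cycle with a chord has fewer than `m - 1`
vertices, hence the layer has a large independent set; the parity inequality then makes the
layers grow too fast.
-/

open scoped Classical

namespace Vale.Agent.P048.Full

universe u

/-- Two colours on a cycle of length `ℓ` with a chord from `0` to `t`: if the ends of every path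
with `r` edges of the five basic shapes have equal colours, the colouring is constant or it is
the proper one of a bipartite graph and `r` is even. -/
def Split : Prop :=
  ∀ (ℓ t r : ℕ) (c : ℕ → Bool), 2 ≤ t → t + 2 ≤ ℓ → 1 ≤ r → r < ℓ →
    (∀ j, j < ℓ → c j = c ((j + r) % ℓ)) →
    (∀ p q, p + q + 1 = r → p < t → t + q < ℓ → c p = c (t + q)) →
    (∀ p q, p + q + 1 = r → p + q < t → c p = c (t - q)) →
    (∀ p q, p + q + 1 = r → p + t + q < ℓ → c ((ℓ - p) % ℓ) = c (t + q)) →
    (∀ p q, p + q + 1 = r → q < t → p + t < ℓ → c ((ℓ - p) % ℓ) = c (t - q)) →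
    (∀ j, j < ℓ → c j = c 0) ∨
      (ℓ % 2 = 0 ∧ r % 2 = 0 ∧ t % 2 = 1 ∧ ∀ j, j + 1 < ℓ → c j ≠ c (j + 1))

variable {V : Type u}

/-- Levels from the root `v` inside `X`; `R` levels below are reached through predecessors. -/
structure Lay (G : SimpleGraph V) (X : Finset V) (v : V) (R : ℕ) (lev : V → ℕ) : Prop where
  mem : v ∈ X
  root : ∀ x ∈ X, (lev x = 0 ↔ x = v)
  edge : ∀ x ∈ X, ∀ y ∈ X, G.Adj x y → lev x ≤ R → lev y ≤ lev x + 1
  pred : ∀ x ∈ X, 0 < lev x → lev x ≤ R + 1 → ∃ y ∈ X, G.Adj x y ∧ lev y + 1 = lev x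

/-- The layer `i`. -/
noncomputable def layer (X : Finset V) (lev : V → ℕ) (i : ℕ) : Finset V :=
  X.filter fun x => lev x = i

/-- A cycle with a chord in one layer has at most `m - 2` vertices. -/
def ChordCycle : Prop :=
  ∀ (V : Type u) (G : SimpleGraph V) (X : Finset V) (v : V) (R : ℕ) (lev : V → ℕ) (m i ℓ t : ℕ)
    (f : ℕ → V), ¬ HasCyc G m → Lay G X v R lev → 1 ≤ i → i ≤ R + 1 → 2 * i + 1 ≤ m →
    IsP G f (ℓ - 1) → G.Adj (f (ℓ - 1)) (f 0) → 2 ≤ t → t + 2 ≤ ℓ → G.Adj (f 0) (f t) →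
    (∀ j, j < ℓ → f j ∈ layer X lev i) → ℓ ≤ m - 2

/-- If no cycle with a chord has more than `T` vertices and there is no clique on
`(T + 2) / 2` vertices, then twice the size is at most `T` times the independence number. -/
def Units : Prop :=
  ∀ (V : Type u) (G : SimpleGraph V) (L : Finset V) (T : ℕ), 6 ≤ T →
    (∀ (ℓ t : ℕ) (f : ℕ → V), IsP G f (ℓ - 1) → G.Adj (f (ℓ - 1)) (f 0) → 2 ≤ t → t + 2 ≤ ℓ →
      G.Adj (f 0) (f t) → (∀ j, j < ℓ → f j ∈ L) → ℓ ≤ T) →
    (∀ K, K ⊆ L → G.IsClique (K : Set V) → K.card < (T + 2) / 2) →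
    2 * L.card ≤ T * alpha G L

/-- The engine: no minimal counterexample without a clique on `m / 2` vertices. -/
def Engine : Prop :=
  ∀ (V : Type u) (G : SimpleGraph V) (m k : ℕ) (X : Finset V), 8 ≤ m → 1 ≤ k → k + 1 ≤ m →
    Cx G m k X → (∀ K, K ⊆ X → G.IsClique (K : Set V) → K.card < m / 2) → False

/-- No minimal counterexample has a clique on `m / 2` vertices. -/
def NoClique : Prop :=
  ∀ (V : Type u) (G : SimpleGraph V) (m k : ℕ) (X K : Finset V), 8 ≤ m → 2 ≤ k → k + 1 ≤ m →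
    Cx G m k X → K ⊆ X → G.IsClique (K : Set V) → m / 2 ≤ K.card → False

end Vale.Agent.P048.Full
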