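import Vale.Agent.P048.Full.ChordCycle
import Vale.Agent.P048.Full.Units
import Vale.Agent.P048.Full.Engine
import Vale.Agent.P048.CliqueUp
import Vale.Agent.P048.Induction

/-!
P048: the identity for every `m ≥ 2 n`, `m ≥ 8`: the engine together with the clique lemma
`Cx.no_clique_up`.
-/

open scoped Classical

namespace Vale.Agent.P048.Full

universe u

/-- The range covered, `k + 1` being the order of the complete graph. -/
def TwoRange (m k : ℕ) : Prop := 2 * k + 2 ≤ m ∧ 8 ≤ m

theorem card_le_two {V : Type u} {G : SimpleGraph V} (m : ℕ) (hno : ¬ HasCyc G m) :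
    ∀ (k : ℕ) (X : Finset V), TwoRange m k → alpha G X ≤ k → X.card ≤ (m - 1) * k := by
  intro k
  induction k using Nat.strong_induction_on with
  | _ k ih =>
  intro X hr hX
  obtain ⟨hr1, hr2⟩ := hr
  by_contra hbig
  rcases Nat.eq_zero_or_pos k with hk | hk
  · subst hk
    rcases X.eq_empty_or_nonempty with h | h
    · simp [h] at hbig
    · have := one_le_alpha (G := G) h
      omega
  have hC : Cx G m k X :=
    ⟨hno, fun Y hY => ih _ hY Y ⟨by omega, hr2⟩ le_rfl, hX, by omega⟩
  refine engine_of chordCycle units V G m k X hr2 hk (by omega) hC fun K hK hcl => ?_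
  by_contra hge
  obtain ⟨T, hT, hTc⟩ := Finset.exists_subset_card_eq (by omega : m / 2 ≤ K.card)
  exact hC.no_clique_up hk (hT.trans hK) (hcl.subset (Finset.coe_subset.2 hT))
    (by omega) (by omega) (by omega)

theorem ramsey_two {m n : ℕ} (hn : 3 ≤ n) (hm : 2 * n ≤ m) (hm8 : 8 ≤ m) :
    IsLeast {N : ℕ | ∀ G : SimpleGraph (Fin N),
      (∃ v, ∃ p : G.Walk v v, p.IsCycle ∧ p.length = m) ∨ ∃ s, G.IsNIndepSet n s}
      ((m - 1) * (n - 1) + 1) := by
  refine ⟨fun G => ?_, fun N hN => ?_⟩
  · by_cases h : alpha G Finset.univ ≤ n - 1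
    · left
      refine HasCyc.to_walk (by omega) ?_
      by_contra hno
      have := card_le_two m hno (n - 1) Finset.univ ⟨by omega, hm8⟩ h
      rw [Finset.card_univ, Fintype.card_fin] at this
      omega
    · right
      obtain ⟨s, -, hs, hc⟩ := exists_indep (by omega : n ≤ alpha G Finset.univ)
      exact ⟨s, fun x hx y hy _ => hs x hx y hy, hc⟩
  · by_contra hlt
    obtain ⟨G, h1, h2⟩ := exists_free (m := m) (n := n) (N := N)
      (by omega) (by omega) (by omega)
    exact (hN G).elim h1 h2

end Vale.Agent.P048.Full
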